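import Vale.Agent.N199.Sharp

namespace Vale.Agent.Results.P199.A0GolodShafarevich

/-- The degree of `b` over the center of `D`. -/
noncomputable def deg {D : Type} [DivisionRing D] (b : D) : ℕ :=
  (minpoly (Subring.center D) b).natDegree

/-- `D` is algebraic over its center `F`, the elements `x i` generate `D` as an `F`-algebra, and
`D` is infinite-dimensional over `F`. -/
def Counterexample (D : Type) [DivisionRing D] {m : ℕ} (x : Fin m → D) : Prop :=
  (∀ b : D, IsAlgebraic (Subring.center D) b) ∧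
    Algebra.adjoin (Subring.center D) (Set.range x) = ⊤ ∧
    ¬ FiniteDimensional (Subring.center D) D

/-- (1) An inequality of Golod and Shafarevich type: `m` generators and bounds `2 ^ a j` on the
degrees of noncommutative polynomials `w j` in them, with `∑ 2 ^ (- a j) < m - 1`. (2) The
possible bounds on the degrees of the generators. -/
theorem result :
    (∀ (k₀ : Type) [Field k₀] [Countable k₀], (2 : k₀) ≠ 0 →
      ∀ (m : ℕ) (J : Type) [Countable J] (w : J → FreeAlgebra k₀ (Fin m)) (a : J → ℕ) (s : ℝ),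
        HasSum (fun j => (1 / 2 : ℝ) ^ a j) s → s < m - 1 →
        ∃ (D : Type) (_ : DivisionRing D) (_ : Algebra k₀ D) (x : Fin m → D),
          Counterexample D x ∧ ∀ j, deg (FreeAlgebra.lift k₀ x (w j)) ≤ 2 ^ a j) ∧
    ∀ (m : ℕ) (d : Fin m → ℕ), (∀ i, d i ≠ 0 ∧ d i ≠ 3) →
      ((∃ (D : Type) (_ : DivisionRing D) (x : Fin m → D),
        Counterexample D x ∧ ∀ i, deg (x i) ≤ d i) ↔ ∑ i, (1 / d i : ℝ) < m - 1) := by
  refine ⟨fun k₀ _ _ h m J _ w a s ha hs => P199G.gs h w a ha (by simpa using hs),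
    fun m d hd => ⟨?_, fun hs => ?_⟩⟩
  · rintro ⟨D, i, x, ⟨h1, h2, h3⟩, h4⟩
    simpa using P199G.sharp d x h1 h2 h3 h4
  · obtain ⟨D, i, _, x, h1, h2⟩ := P199G.gs (k₀ := ℚ) two_ne_zero (FreeAlgebra.ι ℚ)
      (fun i => Nat.log 2 (d i)) (hasSum_fintype _) (P199G.sum_log d hd (by simpa using hs))
    refine ⟨D, i, x, h1, fun j => ?_⟩
    have h3 := h2 j
    rw [FreeAlgebra.lift_ι_apply] at h3
    exact h3.trans (Nat.pow_log_le_self 2 (hd j).1)

end Vale.Agent.Results.P199.A0GolodShafarevich
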